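import Mathlib

/-!
# P136, transport: the Cauchy–Pompeiu formula at the origin
-/

open MeasureTheory Filter Set
open scoped Topology Real

namespace Vale.Agent.P136.Full.Transport

noncomputable section

variable {E : Type*} [NormedAddCommGroup E] [NormedSpace ℝ E] [NormedSpace ℂ E] [IsScalarTower ℝ ℂ E]
  [CompleteSpace E]

omit [CompleteSpace E] in
/-- Real scalars act as complex scalars. -/
lemma coe_smul' (r : ℝ) (x : E) : (r : ℂ) • x = r • x := algebraMap_smul ℂ r x

/-- The unit complex number of angle `θ`. -/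
def circ (θ : ℝ) : ℂ := Complex.exp (θ * Complex.I)

lemma circ_apply (θ : ℝ) : circ θ = (Real.cos θ : ℂ) + (Real.sin θ : ℂ) * Complex.I := by
  rw [circ, Complex.exp_mul_I, Complex.ofReal_cos, Complex.ofReal_sin]

lemma hasDerivAt_circ (θ : ℝ) : HasDerivAt circ (Complex.I * circ θ) θ := by
  have h : HasDerivAt (fun t : ℝ => (t : ℂ) * Complex.I) Complex.I θ := by
    simpa using (Complex.ofRealCLM.hasDerivAt.mul_const Complex.I)
  have := h.cexp
  rw [mul_comm] at this
  exact this

lemma continuous_circ : Continuous circ := by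
  unfold circ; fun_prop

lemma norm_circ (θ : ℝ) : ‖circ θ‖ = 1 := Complex.norm_exp_ofReal_mul_I θ

omit [CompleteSpace E] in
lemma fderiv_split (H : ℂ → E) (w v : ℂ) :
    fderiv ℝ H w v = (v.re : ℂ) • fderiv ℝ H w 1 + (v.im : ℂ) • fderiv ℝ H w Complex.I := by
  have hv : v = v.re • (1 : ℂ) + v.im • Complex.I := by
    simp [Complex.re_add_im]
  conv_lhs => rw [hv]
  rw [map_add, map_smul, map_smul, coe_smul', coe_smul']

/-- `∫ u⁻¹ (∂₁ + i ∂₂) H = -2π H 0`. -/
theorem cauchy_pompeiu {H : ℂ → E} (hH : ContDiff ℝ 1 H) (hc : HasCompactSupport H) :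
    ∫ u : ℂ, u⁻¹ • (fderiv ℝ H u 1 + Complex.I • fderiv ℝ H u Complex.I) =
      -(2 * (π : ℂ)) • H 0 := by
  obtain ⟨R, hR⟩ := hc.isCompact.isBounded.subset_closedBall 0
  have hfd : ∀ w : ℂ, R < ‖w‖ → fderiv ℝ H w = 0 ∧ H w = 0 := by
    intro w hw
    have hn : w ∉ tsupport H := by
      intro hm
      have := hR hm
      rw [mem_closedBall_zero_iff] at this
      linarith
    exact ⟨fderiv_of_notMem_tsupport ℝ hn, image_eq_zero_of_notMem_tsupport hn⟩
  have hcont : Continuous (fderiv ℝ H) := hH.continuous_fderiv one_ne_zero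
  set A : ℝ × ℝ → E := fun q => fderiv ℝ H ((q.1 : ℂ) * circ q.2) (circ q.2) with hA
  set B : ℝ × ℝ → E := fun q => fderiv ℝ H ((q.1 : ℂ) * circ q.2) (Complex.I * circ q.2) with hB
  have hci := continuous_circ
  have hAc : Continuous A := by rw [hA]; fun_prop
  have hBc : Continuous B := by rw [hB]; fun_prop
  have hint : ∀ g : ℝ × ℝ → E, Continuous g → (∀ q : ℝ × ℝ, R < q.1 → g q = 0) →
      IntegrableOn g (Ioi (0 : ℝ) ×ˢ Ioo (-π) π) (volume.prod volume) := by
    intro g hg h0
    have hK : IntegrableOn g (Icc (0 : ℝ) R ×ˢ Icc (-π) π) (volume.prod volume) :=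
      hg.continuousOn.integrableOn_compact (isCompact_Icc.prod isCompact_Icc)
    refine hK.of_forall_sdiff_eq_zero (measurableSet_Ioi.prod measurableSet_Ioo) ?_
    rintro ⟨r, t⟩ ⟨⟨hr, ht⟩, hn⟩
    refine h0 _ ?_
    by_contra hle
    exact hn ⟨⟨le_of_lt hr, not_lt.1 hle⟩, Ioo_subset_Icc_self ht⟩
  have hz : ∀ q : ℝ × ℝ, R < q.1 → fderiv ℝ H ((q.1 : ℂ) * circ q.2) = 0 := by
    intro q hq
    refine (hfd _ ?_).1
    rw [norm_mul, norm_circ, Complex.norm_real, Real.norm_eq_abs, mul_one]
    exact lt_of_lt_of_le hq (le_abs_self _)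
  have hA0 : ∀ q : ℝ × ℝ, R < q.1 → A q = 0 := by
    intro q hq; simp [hA, hz q hq]
  have hB0 : ∀ q : ℝ × ℝ, R < q.1 → B q = 0 := by
    intro q hq; simp [hB, hz q hq]
  have hAi := hint A hAc hA0
  have hBi := hint B hBc hB0
  -- the radial integral
  have hrad : ∀ θ : ℝ, ∫ r in Ioi (0 : ℝ), A (r, θ) = -H 0 := by
    intro θ
    have hd : ∀ r ∈ Ici (0 : ℝ), HasDerivAt (fun r : ℝ => H ((r : ℂ) * circ θ)) (A (r, θ)) r := by
      intro r _
      have h1 : HasDerivAt (fun r : ℝ => (r : ℂ) * circ θ) (circ θ) r := by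
        simpa using (Complex.ofRealCLM.hasDerivAt (x := r)).mul_const (circ θ)
      exact ((hH.differentiable one_ne_zero) _).hasFDerivAt.comp_hasDerivAt r h1
    have hi : IntegrableOn (fun r => A (r, θ)) (Ioi (0 : ℝ)) := by
      have hK : IntegrableOn (fun r => A (r, θ)) (Icc (0 : ℝ) R) :=
        (hAc.comp (continuous_id.prodMk continuous_const)).continuousOn.integrableOn_compact
          isCompact_Icc
      refine hK.of_forall_sdiff_eq_zero measurableSet_Ioi ?_
      rintro r ⟨hr, hn⟩
      refine hA0 (r, θ) ?_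
      by_contra hle
      exact hn ⟨le_of_lt hr, not_lt.1 hle⟩
    have ht : Tendsto (fun r : ℝ => H ((r : ℂ) * circ θ)) atTop (𝓝 0) := by
      refine Tendsto.congr' ?_ tendsto_const_nhds
      filter_upwards [eventually_gt_atTop R] with r hr
      refine ((hfd _ ?_).2).symm
      rw [norm_mul, norm_circ, Complex.norm_real, Real.norm_eq_abs, mul_one]
      exact lt_of_lt_of_le hr (le_abs_self _)
    rw [integral_Ioi_of_hasDerivAt_of_tendsto' hd hi ht]
    simp
  -- the angular integral
  have hang : ∀ r ∈ Ioi (0 : ℝ), ∫ θ in Ioo (-π) π, B (r, θ) = 0 := by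
    intro r hr
    have hd : ∀ θ ∈ uIcc (-π) π,
        HasDerivAt (fun θ : ℝ => H ((r : ℂ) * circ θ)) (r • B (r, θ)) θ := by
      intro θ _
      have h1 : HasDerivAt (fun θ : ℝ => (r : ℂ) * circ θ) ((r : ℂ) * (Complex.I * circ θ)) θ :=
        (hasDerivAt_circ θ).const_mul _
      have h2 := ((hH.differentiable one_ne_zero) _).hasFDerivAt.comp_hasDerivAt θ h1
      have h3 : fderiv ℝ H ((r : ℂ) * circ θ) ((r : ℂ) * (Complex.I * circ θ)) = r • B (r, θ) := by
        rw [show ((r : ℂ) * (Complex.I * circ θ)) = r • (Complex.I * circ θ) from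
          (Complex.real_smul).symm, map_smul]
      exact h3 ▸ h2
    have hci : IntervalIntegrable (fun θ => r • B (r, θ)) volume (-π) π :=
      ((hBc.comp (continuous_const.prodMk continuous_id)).const_smul r).intervalIntegrable _ _
    have h := intervalIntegral.integral_eq_sub_of_hasDerivAt hd hci
    have hper : circ π = circ (-π) := by
      simp [circ_apply]
    rw [hper, sub_self, intervalIntegral.integral_of_le (by linarith [Real.pi_pos]),
      integral_Ioc_eq_integral_Ioo, integral_smul] at h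
    exact (smul_eq_zero.1 h).resolve_left (ne_of_gt hr)
  rw [← Complex.integral_comp_polarCoord_symm, polarCoord_target]
  have hcongr : ∀ q ∈ Ioi (0 : ℝ) ×ˢ Ioo (-π) π,
      q.1 • ((Complex.polarCoord.symm q)⁻¹ • (fderiv ℝ H (Complex.polarCoord.symm q) 1 +
        Complex.I • fderiv ℝ H (Complex.polarCoord.symm q) Complex.I)) =
      A q + Complex.I • B q := by
    rintro ⟨r, θ⟩ ⟨hr, _⟩
    have hr' : (r : ℂ) ≠ 0 := Complex.ofReal_ne_zero.2 (ne_of_gt hr)
    have hp : Complex.polarCoord.symm (r, θ) = (r : ℂ) * circ θ := by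
      rw [Complex.polarCoord_symm_apply, circ_apply]
    have hinv : (circ θ)⁻¹ = (Real.cos θ : ℂ) - (Real.sin θ : ℂ) * Complex.I := by
      have h1 : (circ θ)⁻¹ = circ (-θ) := by
        rw [circ, circ, ← Complex.exp_neg]; push_cast; ring_nf
      rw [h1, circ_apply, Real.cos_neg, Real.sin_neg]; push_cast; ring
    have hre : (circ θ).re = Real.cos θ ∧ (circ θ).im = Real.sin θ := by
      rw [circ_apply]
      refine ⟨?_, ?_⟩
      · simp only [Complex.add_re, Complex.mul_re, Complex.ofReal_re, Complex.ofReal_im,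
          Complex.I_re, Complex.I_im]; ring
      · simp only [Complex.add_im, Complex.mul_im, Complex.ofReal_re, Complex.ofReal_im,
          Complex.I_re, Complex.I_im]; ring
    rw [hp]
    simp only [hA, hB]
    rw [fderiv_split H _ (circ θ), fderiv_split H _ (Complex.I * circ θ),
      ← coe_smul', smul_smul, mul_inv, ← mul_assoc, mul_inv_cancel₀ hr', one_mul, hinv,
      Complex.I_mul_re, Complex.I_mul_im, hre.1, hre.2]
    simp only [Complex.ofReal_neg]
    match_scalars
    · linear_combination (0 : ℂ) * Complex.I_sq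
    · linear_combination -(Complex.sin (θ : ℂ)) * Complex.I_sq
  rw [setIntegral_congr_fun (measurableSet_Ioi.prod measurableSet_Ioo) hcongr,
    Measure.volume_eq_prod]
  have hBi' : IntegrableOn (fun q => Complex.I • B q) (Ioi (0 : ℝ) ×ˢ Ioo (-π) π)
      (volume.prod volume) := hBi.smul Complex.I
  rw [integral_add (μ := (volume.prod volume).restrict (Ioi (0 : ℝ) ×ˢ Ioo (-π) π)) hAi
    hBi', integral_smul]
  have eB : ∫ q in Ioi (0 : ℝ) ×ˢ Ioo (-π) π, B q ∂(volume.prod volume) = 0 := by
    rw [setIntegral_prod B hBi]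
    exact setIntegral_eq_zero_of_forall_eq_zero hang
  have eA : ∫ q in Ioi (0 : ℝ) ×ˢ Ioo (-π) π, A q ∂(volume.prod volume) =
      -(2 * (π : ℂ)) • H 0 := by
    have hAi' : Integrable (Function.uncurry fun r θ => A (r, θ))
        ((volume.restrict (Ioi (0 : ℝ))).prod (volume.restrict (Ioo (-π) π))) := by
      rw [Measure.prod_restrict]
      exact hAi
    rw [setIntegral_prod A hAi, integral_integral_swap hAi', setIntegral_congr_fun measurableSet_Ioo
      (fun θ _ => hrad θ), setIntegral_const, Real.volume_real_Ioo_of_le (by linarith [Real.pi_pos]),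
      ← coe_smul']
    push_cast
    module
  rw [eA, eB, smul_zero, add_zero]

end

end Vale.Agent.P136.Full.Transport
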