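import Vale.Agent.P136.Full.Transport.Kernel

/-!
# P136, transport: solving `(∂₁ + i ∂₂) Y = M Y + f`
-/

open MeasureTheory Filter Set
open scoped Topology ContDiff

namespace Vale.Agent.P136.Full.Transport

noncomputable section

set_option maxSynthPendingDepth 3

variable {E : Type*} [NormedAddCommGroup E] [NormedSpace ℝ E] [NormedSpace ℂ E]
  [IsScalarTower ℝ ℂ E]

/-- The terms of the Neumann series. -/
def neumann (s : ℝ) (M : Par → E →L[ℝ] E) (g : Par → E) : ℕ → Par → E
  | 0 => T s g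
  | n + 1 => T s fun p => M p (neumann s M g n p)

omit [NormedSpace ℂ E] [IsScalarTower ℝ ℂ E] in
lemma hasCompactSupport_apply {M : Par → E →L[ℝ] E} (hM : HasCompactSupport M) (Z : Par → E) :
    HasCompactSupport fun p => M p (Z p) :=
  HasCompactSupport.intro hM.isCompact fun p hp => by simp [image_eq_zero_of_notMem_tsupport hp]

variable [CompleteSpace E] {s : ℝ} {M : Par → E →L[ℝ] E} {g : Par → E}

lemma contDiff_neumann (hs : 0 < s) (hM : ContDiff ℝ ∞ M) (hMc : HasCompactSupport M)
    (hg : ContDiff ℝ ∞ g) (hgc : HasCompactSupport g) :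
    ∀ n, ContDiff ℝ ∞ (neumann s M g n) := by
  intro n
  induction n with
  | zero => exact contDiff_T hs hg hgc
  | succ n ih => exact contDiff_T hs (hM.clm_apply ih) (hasCompactSupport_apply hMc _)

/-- The derivative bound of one step of the iteration. -/
def stepBound (s : ℝ) (mb : ℕ → ℝ) (j : ℕ) (B : ℕ → ℝ) : ℝ :=
  ∑ i ∈ Finset.range (j + 1), (j.choose i : ℝ) * Kc s i *
    ∑ l ∈ Finset.range (j - i + 1), ((j - i).choose l : ℝ) * mb l * B (j - i - l)

lemma stepBound_add_single (s : ℝ) (mb : ℕ → ℝ) (j : ℕ) (B : ℕ → ℝ) (c : ℝ) :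
    stepBound s mb j (fun k => B k + if k = j then c else 0) =
      stepBound s mb j B + Kc s 0 * mb 0 * c := by
  have h : ∀ i ∈ Finset.range (j + 1), ∑ l ∈ Finset.range (j - i + 1),
      ((j - i).choose l : ℝ) * mb l * (if j - i - l = j then c else 0) =
      if i = 0 then mb 0 * c else 0 := by
    intro i hi
    rw [Finset.mem_range] at hi
    by_cases h0 : i = 0
    · subst h0
      rw [if_pos rfl, Finset.sum_eq_single 0]
      · simp
      · intro l hl hl0
        rw [Finset.mem_range] at hl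
        rw [if_neg (by omega), mul_zero]
      · simp
    · rw [if_neg h0]
      refine Finset.sum_eq_zero fun l _ => ?_
      rw [if_neg (by omega), mul_zero]
  simp only [stepBound, mul_add, Finset.sum_add_distrib]
  congr 1
  rw [Finset.sum_congr rfl fun i hi => by rw [h i hi]]
  rw [Finset.sum_eq_single 0]
  · simp [mul_assoc]
  · intro i _ hi0
    simp [hi0]
  · simp

lemma norm_neumann_succ_le (hs : 0 < s) (hM : ContDiff ℝ ∞ M) (hMc : HasCompactSupport M)
    (hg : ContDiff ℝ ∞ g) (hgc : HasCompactSupport g) {mb : ℕ → ℝ}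
    (hmb : ∀ l p, ‖iteratedFDeriv ℝ l M p‖ ≤ mb l) (n j : ℕ) {B : ℕ → ℝ} {c : ℝ}
    (hB : ∀ k ≤ j, ∀ p, ‖iteratedFDeriv ℝ k (neumann s M g n) p‖ ≤ B k * c) (p : Par) :
    ‖iteratedFDeriv ℝ j (neumann s M g (n + 1)) p‖ ≤ stepBound s mb j B * c := by
  have hZ := contDiff_neumann hs hM hMc hg hgc n
  refine (norm_iteratedFDeriv_T_le (n := j)
    (A := fun k => (∑ l ∈ Finset.range (k + 1), (k.choose l : ℝ) * mb l * B (k - l)) * c)
    hs (hM.clm_apply hZ) (hasCompactSupport_apply hMc _) ?_ p).trans (le_of_eq ?_)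
  · intro k hk q
    refine (norm_iteratedFDeriv_clm_apply hM hZ q (mod_cast le_top)).trans ?_
    rw [Finset.sum_mul]
    refine Finset.sum_le_sum fun l _ => ?_
    have h0 : 0 ≤ mb l := (norm_nonneg _).trans (hmb l q)
    calc (k.choose l : ℝ) * ‖iteratedFDeriv ℝ l M q‖ *
          ‖iteratedFDeriv ℝ (k - l) (neumann s M g n) q‖
        ≤ (k.choose l : ℝ) * mb l * (B (k - l) * c) :=
          mul_le_mul (mul_le_mul_of_nonneg_left (hmb l q) (Nat.cast_nonneg _))
            (hB _ ((Nat.sub_le k l).trans hk) q) (norm_nonneg _)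
            (mul_nonneg (Nat.cast_nonneg _) h0)
      _ = (k.choose l : ℝ) * mb l * B (k - l) * c := by ring
  · simp only [stepBound, Finset.sum_mul, mul_assoc]

lemma exists_bound_T (hs : 0 < s) (hg : ContDiff ℝ ∞ g) (hgc : HasCompactSupport g) (j : ℕ) :
    ∃ C, ∀ p, ‖iteratedFDeriv ℝ j (T s g) p‖ ≤ C := by
  choose A hA using exists_bound hg hgc
  exact ⟨_, fun p => norm_iteratedFDeriv_T_le hs hg hgc (fun l _ q => hA l q) p⟩

/-- Geometric decay of every derivative of the Neumann series. -/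
lemma exists_geometric_bound (hs : 0 < s) (hM : ContDiff ℝ ∞ M) (hMc : HasCompactSupport M)
    (hg : ContDiff ℝ ∞ g) (hgc : HasCompactSupport g) {a r : ℝ} (ha : ∀ p, ‖M p‖ ≤ a)
    (hr : Kc s 0 * a < r) (j : ℕ) :
    ∃ B, ∀ n p, ‖iteratedFDeriv ℝ j (neumann s M g n) p‖ ≤ B * r ^ n := by
  choose mb hmb using exists_bound hM hMc
  let mb' : ℕ → ℝ := fun l => if l = 0 then a else mb l
  have hmb' : ∀ l p, ‖iteratedFDeriv ℝ l M p‖ ≤ mb' l := by
    intro l p
    by_cases hl : l = 0
    · subst hl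
      simpa [mb', norm_iteratedFDeriv_zero] using ha p
    · simpa [mb', hl] using hmb l p
  induction j using Nat.strong_induction_on with
  | _ j ih =>
    choose B hB using ih
    let B₀ : ℕ → ℝ := fun k => if h : k < j then B k h else 0
    obtain ⟨D, hD⟩ := exists_bound_T hs hg hgc j
    let C : ℝ := max D (stepBound s mb' j B₀ / (r - Kc s 0 * a))
    refine ⟨C, fun n => ?_⟩
    induction n with
    | zero =>
      intro p
      rw [pow_zero, mul_one, neumann]
      exact (hD p).trans (le_max_left _ _)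
    | succ n ihn =>
      intro p
      have hall : ∀ k ≤ j, ∀ q, ‖iteratedFDeriv ℝ k (neumann s M g n) q‖ ≤
          (B₀ k + if k = j then C else 0) * r ^ n := by
        intro k hk q
        rcases eq_or_lt_of_le hk with rfl | hlt
        · simpa [B₀] using ihn q
        · simpa [B₀, hlt, hlt.ne] using hB k hlt n q
      refine (norm_neumann_succ_le hs hM hMc hg hgc hmb' n j hall p).trans ?_
      rw [stepBound_add_single, show mb' 0 = a from if_pos rfl, pow_succ]
      have hle : stepBound s mb' j B₀ + Kc s 0 * a * C ≤ r * C := by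
        have h1 : stepBound s mb' j B₀ ≤ C * (r - Kc s 0 * a) :=
          (div_le_iff₀ (sub_pos.2 hr)).1 (le_max_right _ _)
        linarith
      have hr0 : 0 ≤ r ^ n :=
        pow_nonneg (((mul_nonneg (Kc_nonneg hs.le 0) ((norm_nonneg _).trans (ha p))).trans hr.le)) n
      refine (mul_le_mul_of_nonneg_right hle hr0).trans (le_of_eq ?_)
      ring

lemma norm_neumann_le (hs : 0 < s) (hM : ContDiff ℝ ∞ M) (hMc : HasCompactSupport M)
    (hg : ContDiff ℝ ∞ g) (hgc : HasCompactSupport g) {a G : ℝ} (ha : ∀ p, ‖M p‖ ≤ a)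
    (hG : ∀ p, ‖g p‖ ≤ G) :
    ∀ n p, ‖neumann s M g n p‖ ≤ Kc s 0 * G * (Kc s 0 * a) ^ n := by
  intro n
  induction n with
  | zero =>
    intro p
    have h := norm_iteratedFDeriv_T_le (n := 0) (A := fun _ => G) hs hg hgc
      (fun l hl q => by rw [Nat.le_zero.1 hl, norm_iteratedFDeriv_zero]; exact hG q) p
    simpa [neumann, norm_iteratedFDeriv_zero] using h
  | succ n ih =>
    intro p
    have h := norm_iteratedFDeriv_T_le (n := 0)
      (A := fun _ => a * (Kc s 0 * G * (Kc s 0 * a) ^ n)) hs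
      (hM.clm_apply (contDiff_neumann hs hM hMc hg hgc n))
      (hasCompactSupport_apply hMc _) (fun l hl q => by
        rw [Nat.le_zero.1 hl, norm_iteratedFDeriv_zero]
        exact ((M q).le_opNorm _).trans (mul_le_mul (ha q) (ih q) (norm_nonneg _)
          ((norm_nonneg _).trans (ha q)))) p
    rw [norm_iteratedFDeriv_zero] at h
    refine h.trans (le_of_eq ?_)
    simp
    ring

/-- Solution of the weighted equation, with a bound. -/
theorem exists_weighted (hs : 0 < s) (hM : ContDiff ℝ ∞ M) (hMc : HasCompactSupport M)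
    (hg : ContDiff ℝ ∞ g) (hgc : HasCompactSupport g) {a G : ℝ} (ha : ∀ p, ‖M p‖ ≤ a)
    (hG : ∀ p, ‖g p‖ ≤ G) (hsmall : Kc s 0 * a ≤ 1 / 2) :
    ∃ Z : Par → E, ContDiff ℝ ∞ Z ∧
      (∀ p, dbar Z p + ((s : ℂ) * p.1) • Z p = M p (Z p) + g p) ∧
      ∀ p, ‖Z p‖ ≤ 2 * (Kc s 0 * G) := by
  choose B hB using fun j =>
    exists_geometric_bound hs hM hMc hg hgc ha (r := 3 / 4) (by linarith) j
  have hgeo : ∀ k, Summable fun n => B k * (3 / 4 : ℝ) ^ n := fun k =>
    (summable_geometric_of_lt_one (by norm_num) (by norm_num)).mul_left _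
  have hsm := contDiff_neumann hs hM hMc hg hgc
  refine ⟨fun p => ∑' n, neumann s M g n p, ?_, ?_, ?_⟩
  · exact contDiff_tsum (v := fun k n => B k * (3 / 4 : ℝ) ^ n) hsm (fun k _ => hgeo k)
      fun k n p _ => hB k n p
  · intro p
    have hfd' : ∀ n q, ‖fderiv ℝ (neumann s M g n) q‖ ≤ B 1 * (3 / 4 : ℝ) ^ n := fun n q => by
      rw [← norm_iteratedFDeriv_one]
      exact hB 1 n q
    have hval : ∀ q, Summable fun n => neumann s M g n q := fun q =>
      .of_norm_bounded (hgeo 0) fun n => by simpa [norm_iteratedFDeriv_zero] using hB 0 n q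
    have hsd : Summable fun n => fderiv ℝ (neumann s M g n) p :=
      .of_norm_bounded (hgeo 1) fun n => hfd' n p
    have hd : fderiv ℝ (fun q => ∑' n, neumann s M g n q) p =
        ∑' n, fderiv ℝ (neumann s M g n) p :=
      congrFun (fderiv_tsum (hgeo 1) (fun n => (hsm n).differentiable (by simp)) hfd' (hval p)) p
    have hterm : HasSum (fun n => dbar (neumann s M g n) p +
        ((s : ℂ) * p.1) • neumann s M g n p)
        (dbar (fun q => ∑' n, neumann s M g n q) p +
          ((s : ℂ) * p.1) • ∑' n, neumann s M g n p) := by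
      refine HasSum.add ?_ ((hval p).hasSum.const_smul _)
      rw [dbar, hd]
      simp only [dbar]
      exact ((ContinuousLinearMap.apply ℝ E ((1, 0) : Par)).hasSum hsd.hasSum).add
        (((ContinuousLinearMap.apply ℝ E ((Complex.I, 0) : Par)).hasSum
          hsd.hasSum).const_smul Complex.I)
    have hrhs : HasSum (fun n => dbar (neumann s M g n) p +
        ((s : ℂ) * p.1) • neumann s M g n p) (M p (∑' n, neumann s M g n p) + g p) := by
      rw [← hasSum_nat_add_iff' 1, Finset.sum_range_one]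
      have h0 : dbar (neumann s M g 0) p + ((s : ℂ) * p.1) • neumann s M g 0 p = g p :=
        dbar_T hs hg hgc p
      rw [h0, add_sub_cancel_right]
      have hn : ∀ n, dbar (neumann s M g (n + 1)) p + ((s : ℂ) * p.1) • neumann s M g (n + 1) p =
          M p (neumann s M g n p) := fun n =>
        dbar_T hs (hM.clm_apply (hsm n)) (hasCompactSupport_apply hMc _) p
      simp_rw [hn]
      exact (M p).hasSum (hval p).hasSum
    exact hterm.unique hrhs
  · intro p
    have ha0 : 0 ≤ a := (norm_nonneg _).trans (ha p)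
    have hq0 : 0 ≤ Kc s 0 * a := mul_nonneg (Kc_nonneg hs.le 0) ha0
    have hG0 : 0 ≤ Kc s 0 * G :=
      mul_nonneg (Kc_nonneg hs.le 0) ((norm_nonneg _).trans (hG p))
    refine tsum_of_norm_bounded (g := fun n => Kc s 0 * G * (1 / 2 : ℝ) ^ n) ?_ fun n => ?_
    · simpa [mul_comm] using hasSum_geometric_two.mul_left (Kc s 0 * G)
    · exact (norm_neumann_le hs hM hMc hg hgc ha hG n p).trans
        (mul_le_mul_of_nonneg_left (pow_le_pow_left₀ hq0 hsmall n) hG0)

/-- The Gaussian weight. -/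
def weight (s : ℝ) (p : Par) : ℝ := Real.exp (s / 2 * (p.1.re ^ 2 + p.1.im ^ 2))

lemma contDiff_weight (s : ℝ) : ContDiff ℝ ∞ (weight s) := by
  have h3 : ContDiff ℝ ∞ fun q : Par => q.1.re := Complex.reCLM.contDiff.comp contDiff_fst
  have h4 : ContDiff ℝ ∞ fun q : Par => q.1.im := Complex.imCLM.contDiff.comp contDiff_fst
  exact (contDiff_const.mul ((h3.pow 2).add (h4.pow 2))).exp

lemma one_le_weight (hs : 0 ≤ s) (p : Par) : 1 ≤ weight s p :=
  Real.one_le_exp (by positivity)

lemma weight_of_fst_eq_zero (s : ℝ) {p : Par} (hp : p.1 = 0) : weight s p = 1 := by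
  simp [weight, hp]

omit [CompleteSpace E] in
lemma dbar_weight_smul (s : ℝ) {Z : Par → E} (hZ : Differentiable ℝ Z) (p : Par) :
    dbar (fun q => weight s q • Z q) p =
      weight s p • (dbar Z p + ((s : ℂ) * p.1) • Z p) := by
  have hre : HasFDerivAt (fun q : Par => q.1.re)
      (Complex.reCLM.comp (ContinuousLinearMap.fst ℝ ℂ (ℂ × ℝ))) p :=
    (Complex.reCLM.comp (ContinuousLinearMap.fst ℝ ℂ (ℂ × ℝ))).hasFDerivAt
  have him : HasFDerivAt (fun q : Par => q.1.im)
      (Complex.imCLM.comp (ContinuousLinearMap.fst ℝ ℂ (ℂ × ℝ))) p :=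
    (Complex.imCLM.comp (ContinuousLinearMap.fst ℝ ℂ (ℂ × ℝ))).hasFDerivAt
  have hw : HasFDerivAt (weight s) _ p := (((hre.pow 2).add (him.pow 2)).const_mul (s / 2)).exp
  have h3 : HasFDerivAt (fun q => weight s q • Z q) _ p := hw.smul (hZ p).hasFDerivAt
  rw [dbar, dbar, h3.fderiv]
  simp only [add_apply, FunLike.coe_smul, Pi.smul_apply, ContinuousLinearMap.smulRight_apply,
    ContinuousLinearMap.comp_apply, ContinuousLinearMap.coe_fst', Complex.reCLM_apply,
    Complex.imCLM_apply, smul_eq_mul, Complex.one_re, Complex.one_im, Complex.I_re, Complex.I_im,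
    ← weight.eq_def, Pi.add_apply]
  conv_rhs => rw [show ((s : ℂ) * p.1) = (s : ℂ) * (p.1.re + p.1.im * Complex.I) by
    rw [Complex.re_add_im]]
  simp only [← coe_smul', weight]
  push_cast
  match_scalars <;> ring

/-- Global solution of `(∂₁ + i ∂₂) Y = M Y + f` for compactly supported data. -/
theorem exists_dbar (hM : ContDiff ℝ ∞ M) (hMc : HasCompactSupport M) {f : Par → E}
    (hf : ContDiff ℝ ∞ f) (hfc : HasCompactSupport f) :
    ∃ Y : Par → E, ContDiff ℝ ∞ Y ∧ ∀ p, dbar Y p = M p (Y p) + f p := by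
  obtain ⟨a, ha⟩ := hM.continuous.bounded_above_of_compact_support hMc
  obtain ⟨G, hG⟩ := hf.continuous.bounded_above_of_compact_support hfc
  obtain ⟨s, hs, hsmall⟩ := exists_Kc_small a (show (0 : ℝ) < 1 / 2 by norm_num)
  have hg : ContDiff ℝ ∞ fun p => (weight s p)⁻¹ • f p :=
    ((contDiff_weight s).inv fun p => (Real.exp_pos _).ne').smul hf
  have hgc : HasCompactSupport fun p => (weight s p)⁻¹ • f p := hfc.smul_left
  have hgb : ∀ p, ‖(weight s p)⁻¹ • f p‖ ≤ G := by
    intro p
    refine le_trans ?_ (hG p)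
    rw [norm_smul, norm_inv, Real.norm_eq_abs, abs_of_pos (show 0 < weight s p from Real.exp_pos _)]
    exact mul_le_of_le_one_left (norm_nonneg _) (inv_le_one_of_one_le₀ (one_le_weight hs.le p))
  obtain ⟨Z, hZ, hZe, -⟩ := exists_weighted hs hM hMc hg hgc ha hgb hsmall
  refine ⟨fun p => weight s p • Z p, (contDiff_weight s).smul hZ, fun p => ?_⟩
  rw [dbar_weight_smul s (hZ.differentiable (by simp)) p, hZe p, map_smul, smul_add,
    smul_inv_smul₀ (show weight s p ≠ 0 from (Real.exp_pos _).ne')]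

omit [IsScalarTower ℝ ℂ E] [CompleteSpace E] in
lemma dbar_const_add (c : E) (Y : Par → E) (p : Par) : dbar (fun q => c + Y q) p = dbar Y p := by
  simp [dbar, fderiv_const_add]

/-- Solution of `(∂₁ + i ∂₂) Y = M Y` close to a given vector at a point of the axis. -/
theorem exists_dbar_near (hM : ContDiff ℝ ∞ M) (hMc : HasCompactSupport M) (c : E)
    {p₀ : Par} (hp₀ : p₀.1 = 0) :
    ∃ Y : Par → E, ContDiff ℝ ∞ Y ∧ (∀ p, dbar Y p = M p (Y p)) ∧ ‖Y p₀ - c‖ ≤ ‖c‖ / 2 := by
  obtain ⟨a, ha⟩ := hM.continuous.bounded_above_of_compact_support hMc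
  obtain ⟨s, hs, hsmall⟩ := exists_Kc_small a (show (0 : ℝ) < 1 / 4 by norm_num)
  have hg : ContDiff ℝ ∞ fun p => (weight s p)⁻¹ • M p c :=
    ((contDiff_weight s).inv fun p => (Real.exp_pos _).ne').smul (hM.clm_apply contDiff_const)
  have hgc : HasCompactSupport fun p => (weight s p)⁻¹ • M p c :=
    (hasCompactSupport_apply hMc fun _ => c).smul_left
  have hgb : ∀ p, ‖(weight s p)⁻¹ • M p c‖ ≤ a * ‖c‖ := by
    intro p
    refine le_trans ?_ (((M p).le_opNorm c).trans (mul_le_mul_of_nonneg_right (ha p) (norm_nonneg c)))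
    rw [norm_smul, norm_inv, Real.norm_eq_abs, abs_of_pos (show 0 < weight s p from Real.exp_pos _)]
    exact mul_le_of_le_one_left (norm_nonneg _) (inv_le_one_of_one_le₀ (one_le_weight hs.le p))
  obtain ⟨Z, hZ, hZe, hZb⟩ := exists_weighted hs hM hMc hg hgc ha hgb (hsmall.trans (by norm_num))
  refine ⟨fun p => c + weight s p • Z p, contDiff_const.add ((contDiff_weight s).smul hZ),
    fun p => ?_, ?_⟩
  · rw [dbar_const_add, dbar_weight_smul s (hZ.differentiable (by simp)) p, hZe p, map_add,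
      map_smul, smul_add, smul_inv_smul₀ (show weight s p ≠ 0 from (Real.exp_pos _).ne'), add_comm]
  · rw [add_sub_cancel_left, weight_of_fst_eq_zero s hp₀, one_smul]
    refine (hZb p₀).trans ?_
    have := mul_le_mul_of_nonneg_right hsmall (norm_nonneg c)
    linarith

end

end Vale.Agent.P136.Full.Transport
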