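import Vale.Agent.P136.Full.Spec
import Vale.Agent.P136.Full.Transport.Solve

/-!
# P136: the transport systems along a family of null vectors are solvable
-/

open MeasureTheory Filter Set Metric
open scoped Topology ContDiff

namespace Vale.Agent.P136.Full.Transport

noncomputable section

set_option maxSynthPendingDepth 3

/-- The real dot product as a functional. -/
def dotL (a : Space) : Space →L[ℝ] ℝ := ∑ i, a i • ContinuousLinearMap.proj i

lemma dotL_apply (a v : Space) : dotL a v = a 0 * v 0 + a 1 * v 1 + a 2 * v 2 := by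
  simp [dotL, Fin.sum_univ_three]

/-- The cross product. -/
def crossR (a b : Space) : Space :=
  ![a 1 * b 2 - a 2 * b 1, a 2 * b 0 - a 0 * b 2, a 0 * b 1 - a 1 * b 0]

/-- The real part of a null vector. -/
def aV (θ : ℂ → C3) (z : ℂ) : Space := fun i => (θ z i).re

/-- The imaginary part of a null vector. -/
def bV (θ : ℂ → C3) (z : ℂ) : Space := fun i => (θ z i).im

/-- The common normal. -/
def nV (θ : ℂ → C3) (z : ℂ) : Space := crossR (aV θ z) (bV θ z)

/-- The linear part of the coordinates adapted to `θ z`. -/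
def lin (θ : ℂ → C3) (z : ℂ) : Space →L[ℝ] Par :=
  (dotL (aV θ z)).smulRight ((dotL (aV θ z) (aV θ z))⁻¹ • ((1, 0) : Par)) +
    (dotL (bV θ z)).smulRight ((dotL (aV θ z) (aV θ z))⁻¹ • ((Complex.I, 0) : Par)) +
      (dotL (nV θ z)).smulRight ((dotL (nV θ z) (nV θ z))⁻¹ • ((0, (0, 1)) : Par))

/-- The coordinates. -/
def coord (θ : ℂ → C3) (x₀ : Space) (q : ℂ × Space) : Par :=
  ((0, (q.1, 0)) : Par) + lin θ q.1 (q.2 - x₀)

/-- The inverse coordinates. -/
def back (θ : ℂ → C3) (x₀ : Space) (p : Par) : ℂ × Space :=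
  (p.2.1, x₀ + p.1.re • aV θ p.2.1 + p.1.im • bV θ p.2.1 + p.2.2 • nV θ p.2.1)

variable {θ : ℂ → C3}

lemma null_facts (hnull : ∀ z, IsNull (θ z)) (z : ℂ) :
    dotL (bV θ z) (aV θ z) = 0 ∧ dotL (bV θ z) (bV θ z) = dotL (aV θ z) (aV θ z) ∧
      0 < dotL (aV θ z) (aV θ z) ∧
      dotL (nV θ z) (nV θ z) = dotL (aV θ z) (aV θ z) * dotL (aV θ z) (aV θ z) ∧
      dotL (nV θ z) (aV θ z) = 0 ∧ dotL (nV θ z) (bV θ z) = 0 := by
  obtain ⟨h, hne⟩ := hnull z
  have hre := congrArg Complex.re h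
  have him := congrArg Complex.im h
  simp only [bdot, Fin.sum_univ_three, Complex.add_re, Complex.mul_re, Complex.zero_re] at hre
  simp only [bdot, Fin.sum_univ_three, Complex.add_im, Complex.mul_im, Complex.zero_im] at him
  have h1 : dotL (bV θ z) (aV θ z) = 0 := by
    simp only [dotL_apply, aV, bV]; linarith
  have h2 : dotL (bV θ z) (bV θ z) = dotL (aV θ z) (aV θ z) := by
    simp only [dotL_apply, aV, bV]; linarith
  have h3 : 0 < dotL (aV θ z) (aV θ z) := by
    by_contra hle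
    refine hne (funext fun i => ?_)
    simp only [dotL_apply, aV, bV] at hle h2
    have e0 := mul_self_nonneg (θ z 0).re
    have e1 := mul_self_nonneg (θ z 1).re
    have e2 := mul_self_nonneg (θ z 2).re
    have f0 := mul_self_nonneg (θ z 0).im
    have f1 := mul_self_nonneg (θ z 1).im
    have f2 := mul_self_nonneg (θ z 2).im
    have z0 : (θ z i).re * (θ z i).re = 0 ∧ (θ z i).im * (θ z i).im = 0 := by
      fin_cases i <;> refine ⟨?_, ?_⟩ <;> simp only [Fin.zero_eta, Fin.mk_one, Fin.reduceFinMk] <;>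
        linarith
    exact Complex.ext (mul_self_eq_zero.1 z0.1) (mul_self_eq_zero.1 z0.2)
  refine ⟨h1, h2, h3, ?_, ?_, ?_⟩
  · have hid : dotL (nV θ z) (nV θ z) = dotL (aV θ z) (aV θ z) * dotL (bV θ z) (bV θ z) -
        dotL (bV θ z) (aV θ z) * dotL (bV θ z) (aV θ z) := by
      simp [dotL_apply, nV, crossR]
      ring
    rw [hid, h1, h2]; ring
  · simp [dotL_apply, nV, crossR]; ring
  · simp [dotL_apply, nV, crossR]; ring

lemma lin_apply (θ : ℂ → C3) (z : ℂ) (v : Space) :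
    lin θ z v = (dotL (aV θ z) v / dotL (aV θ z) (aV θ z)) • ((1, 0) : Par) +
      (dotL (bV θ z) v / dotL (aV θ z) (aV θ z)) • ((Complex.I, 0) : Par) +
        (dotL (nV θ z) v / dotL (nV θ z) (nV θ z)) • ((0, (0, 1)) : Par) := by
  simp [lin, div_eq_mul_inv, mul_assoc]

lemma back_coord (hnull : ∀ z, IsNull (θ z)) (x₀ : Space) (q : ℂ × Space) :
    back θ x₀ (coord θ x₀ q) = q := by
  obtain ⟨z, x⟩ := q
  obtain ⟨h1, h2, h3, h4, -, -⟩ := null_facts hnull z
  have hz : (coord θ x₀ (z, x)).2.1 = z := by simp [coord, lin_apply]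
  have hre : (coord θ x₀ (z, x)).1.re = dotL (aV θ z) (x - x₀) / dotL (aV θ z) (aV θ z) := by
    simp [coord, lin_apply]
  have him : (coord θ x₀ (z, x)).1.im = dotL (bV θ z) (x - x₀) / dotL (aV θ z) (aV θ z) := by
    simp [coord, lin_apply]
  have ht : (coord θ x₀ (z, x)).2.2 = dotL (nV θ z) (x - x₀) / dotL (nV θ z) (nV θ z) := by
    simp [coord, lin_apply]
  rw [back, hz, hre, him, ht]
  refine Prod.ext rfl (funext fun i => ?_)
  set v : Space := x - x₀ with hv
  set a := aV θ z with ha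
  set b := bV θ z with hb
  have key : dotL (nV θ z) (nV θ z) * v i =
      (dotL a v * dotL b b - dotL b v * dotL b a) * a i +
        (dotL b v * dotL a a - dotL a v * dotL b a) * b i + dotL (nV θ z) v * nV θ z i := by
    simp only [nV, ← ha, ← hb]
    fin_cases i <;> simp [dotL_apply, crossR] <;> ring
  rw [h1, h2, h4] at key
  have hA : dotL a a ≠ 0 := h3.ne'
  have hxi : x i = x₀ i + v i := by simp [hv]
  simp only [Pi.add_apply, Pi.smul_apply, smul_eq_mul]
  rw [h4, hxi]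
  field_simp
  linear_combination -key

lemma contDiff_aV (hθ : ContDiff ℝ ∞ θ) : ContDiff ℝ ∞ (aV θ) :=
  contDiff_pi.2 fun i => Complex.reCLM.contDiff.comp ((contDiff_apply ℝ ℂ i).comp hθ)

lemma contDiff_bV (hθ : ContDiff ℝ ∞ θ) : ContDiff ℝ ∞ (bV θ) :=
  contDiff_pi.2 fun i => Complex.imCLM.contDiff.comp ((contDiff_apply ℝ ℂ i).comp hθ)

lemma contDiff_nV (hθ : ContDiff ℝ ∞ θ) : ContDiff ℝ ∞ (nV θ) := by
  have ha := fun i => contDiff_pi.1 (contDiff_aV hθ) i
  have hb := fun i => contDiff_pi.1 (contDiff_bV hθ) i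
  refine contDiff_pi.2 fun i => ?_
  fin_cases i
  · simpa [nV, crossR] using ((ha 1).mul (hb 2)).sub ((ha 2).mul (hb 1))
  · simpa [nV, crossR] using ((ha 2).mul (hb 0)).sub ((ha 0).mul (hb 2))
  · simpa [nV, crossR] using ((ha 0).mul (hb 1)).sub ((ha 1).mul (hb 0))

lemma contDiff_dotL {F : Type*} [NormedAddCommGroup F] [NormedSpace ℝ F] {u v : F → Space}
    (hu : ContDiff ℝ ∞ u) (hv : ContDiff ℝ ∞ v) : ContDiff ℝ ∞ fun q => dotL (u q) (v q) := by
  simp only [dotL_apply]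
  exact (((contDiff_pi.1 hu 0).mul (contDiff_pi.1 hv 0)).add
    ((contDiff_pi.1 hu 1).mul (contDiff_pi.1 hv 1))).add
      ((contDiff_pi.1 hu 2).mul (contDiff_pi.1 hv 2))

lemma contDiff_coord (hθ : ContDiff ℝ ∞ θ) (hnull : ∀ z, IsNull (θ z)) (x₀ : Space) :
    ContDiff ℝ ∞ (coord θ x₀) := by
  have ha : ContDiff ℝ ∞ fun q : ℂ × Space => aV θ q.1 := (contDiff_aV hθ).comp contDiff_fst
  have hb : ContDiff ℝ ∞ fun q : ℂ × Space => bV θ q.1 := (contDiff_bV hθ).comp contDiff_fst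
  have hn : ContDiff ℝ ∞ fun q : ℂ × Space => nV θ q.1 := (contDiff_nV hθ).comp contDiff_fst
  have hv : ContDiff ℝ ∞ fun q : ℂ × Space => q.2 - x₀ := contDiff_snd.sub contDiff_const
  have hA : ∀ q : ℂ × Space, dotL (aV θ q.1) (aV θ q.1) ≠ 0 := fun q =>
    (null_facts hnull q.1).2.2.1.ne'
  have hN : ∀ q : ℂ × Space, dotL (nV θ q.1) (nV θ q.1) ≠ 0 := fun q => by
    rw [(null_facts hnull q.1).2.2.2.1]
    exact mul_ne_zero (hA q) (hA q)
  unfold coord
  simp only [lin_apply]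
  refine (contDiff_const.prodMk (contDiff_fst.prodMk contDiff_const)).add ((ContDiff.add ?_ ?_).add ?_)
  · exact ((contDiff_dotL ha hv).div (contDiff_dotL ha ha) hA).smul contDiff_const
  · exact ((contDiff_dotL hb hv).div (contDiff_dotL ha ha) hA).smul contDiff_const
  · exact ((contDiff_dotL hn hv).div (contDiff_dotL hn hn) hN).smul contDiff_const

lemma contDiff_back (hθ : ContDiff ℝ ∞ θ) (x₀ : Space) : ContDiff ℝ ∞ (back θ x₀) := by
  have hz : ContDiff ℝ ∞ fun p : Par => p.2.1 := contDiff_fst.comp contDiff_snd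
  have hr : ContDiff ℝ ∞ fun p : Par => p.1.re := Complex.reCLM.contDiff.comp contDiff_fst
  have hi : ContDiff ℝ ∞ fun p : Par => p.1.im := Complex.imCLM.contDiff.comp contDiff_fst
  have ht : ContDiff ℝ ∞ fun p : Par => p.2.2 := contDiff_snd.comp contDiff_snd
  exact hz.prodMk (((contDiff_const.add (hr.smul ((contDiff_aV hθ).comp hz))).add
    (hi.smul ((contDiff_bV hθ).comp hz))).add (ht.smul ((contDiff_nV hθ).comp hz)))

/-- `θ · ∇` becomes `∂₁ + i ∂₂` in the coordinates. -/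
lemma Dth_comp_coord (hnull : ∀ z, IsNull (θ z)) (x₀ : Space) {Y : Par → Amp}
    (hY : Differentiable ℝ Y) (z : ℂ) (x : Space) :
    Dth (θ z) (fun y => Y (coord θ x₀ (z, y))) x = dbar Y (coord θ x₀ (z, x)) := by
  obtain ⟨h1, h2, h3, h4, h5, h6⟩ := null_facts hnull z
  have hc : HasFDerivAt (fun y => coord θ x₀ (z, y)) (lin θ z) x :=
    ((((lin θ z).hasFDerivAt.comp x ((hasFDerivAt_id x).sub_const x₀))).const_add
      ((0, (z, 0)) : Par)).congr_fderiv (ContinuousLinearMap.comp_id _)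
  set L := fderiv ℝ Y (coord θ x₀ (z, x)) with hL
  have hpd : ∀ i, Full.pd i (fun y => Y (coord θ x₀ (z, y))) x = L (lin θ z (Pi.single i 1)) := by
    intro i
    have h : HasFDerivAt (fun y => Y (coord θ x₀ (z, y))) (L.comp (lin θ z)) x :=
      (hY _).hasFDerivAt.comp x hc
    rw [Full.pd, h.fderiv]
    rfl
  have hθi : ∀ i, θ z i = (aV θ z i : ℂ) + (bV θ z i : ℂ) * Complex.I := fun i =>
    (Complex.re_add_im _).symm
  have hsingle : ∀ (u : Space) (i : Fin 3), dotL u (Pi.single i 1) = u i := by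
    intro u i
    fin_cases i <;> simp [dotL_apply]
  have hA : (dotL (aV θ z) (aV θ z) : ℂ) ≠ 0 := Complex.ofReal_ne_zero.2 h3.ne'
  have ea : θ z 0 * (aV θ z 0 : ℂ) + θ z 1 * (aV θ z 1 : ℂ) + θ z 2 * (aV θ z 2 : ℂ) =
      (dotL (aV θ z) (aV θ z) : ℂ) := by
    have c1 := congrArg Complex.ofReal h1
    simp only [hθi, dotL_apply] at c1 ⊢
    push_cast at c1 ⊢
    linear_combination Complex.I * c1
  have eb : θ z 0 * (bV θ z 0 : ℂ) + θ z 1 * (bV θ z 1 : ℂ) + θ z 2 * (bV θ z 2 : ℂ) =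
      Complex.I * (dotL (aV θ z) (aV θ z) : ℂ) := by
    have c1 := congrArg Complex.ofReal h1
    have c2 := congrArg Complex.ofReal h2
    simp only [hθi, dotL_apply] at c1 c2 ⊢
    push_cast at c1 c2 ⊢
    linear_combination c1 + Complex.I * c2
  have en : θ z 0 * (nV θ z 0 : ℂ) + θ z 1 * (nV θ z 1 : ℂ) + θ z 2 * (nV θ z 2 : ℂ) = 0 := by
    have c5 := congrArg Complex.ofReal h5
    have c6 := congrArg Complex.ofReal h6
    simp only [hθi, dotL_apply] at c5 c6 ⊢
    push_cast at c5 c6 ⊢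
    linear_combination c5 + Complex.I * c6
  simp only [Dth, hpd, lin_apply, hsingle, map_add, map_smul, Fin.sum_univ_three, dbar, ← hL]
  simp only [← Complex.coe_smul]
  push_cast
  match_scalars
  · linear_combination (dotL (aV θ z) (aV θ z) : ℂ)⁻¹ * ea + mul_inv_cancel₀ hA
  · linear_combination (dotL (aV θ z) (aV θ z) : ℂ)⁻¹ * eb + Complex.I * mul_inv_cancel₀ hA
  · linear_combination (dotL (nV θ z) (nV θ z) : ℂ)⁻¹ * en

/-- The endomorphisms of amplitudes. -/
abbrev AmpEnd : Type := Amp →L[ℂ] Amp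

/-- Application as a real bilinear map. -/
def appR : AmpEnd →L[ℝ] Amp →L[ℝ] Amp :=
  (ContinuousLinearMap.id ℂ AmpEnd).bilinearRestrictScalars ℝ

/-- Composition as a real bilinear map. -/
def compR : AmpEnd →L[ℝ] AmpEnd →L[ℝ] AmpEnd :=
  (ContinuousLinearMap.compL ℂ Amp Amp Amp).bilinearRestrictScalars ℝ

lemma appR_apply (A : AmpEnd) (v : Amp) : appR A v = A v := rfl

lemma compR_apply (A B : AmpEnd) : compR A B = A.comp B := rfl

lemma dbar_eval {Y : Par → AmpEnd} (hY : Differentiable ℝ Y) (v : Amp) (p : Par) :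
    dbar (fun q => Y q v) p = dbar Y p v := by
  have h : HasFDerivAt (fun q => Y q v)
      (((ContinuousLinearMap.apply ℂ Amp v).restrictScalars ℝ).comp (fderiv ℝ Y p)) p :=
    ((ContinuousLinearMap.apply ℂ Amp v).restrictScalars ℝ).hasFDerivAt.comp p (hY p).hasFDerivAt
  rw [dbar, h.fderiv]
  simp [dbar]

/-- Data localised in the coordinates around the set where the equation is required. -/
lemma exists_localised (hθ : ContDiff ℝ ∞ θ) (hnull : ∀ z, IsNull (θ z)) (x₀ : Space)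
    {F : Type*} [NormedAddCommGroup F] [NormedSpace ℝ F] {N : ℂ × Space → F}
    (hN : ContDiff ℝ ∞ N) (z₀ : ℂ) (R : ℝ) :
    ∃ G : Par → F, ContDiff ℝ ∞ G ∧ HasCompactSupport G ∧
      ∀ z ∈ ball z₀ 1, ∀ x ∈ ball (0 : Space) R, G (coord θ x₀ (z, x)) = N (z, x) := by
  have hK : IsCompact (coord θ x₀ '' (closedBall z₀ 1 ×ˢ closedBall (0 : Space) R)) :=
    ((isCompact_closedBall z₀ 1).prod (isCompact_closedBall (0 : Space) R)).image
      (contDiff_coord hθ hnull x₀).continuous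
  obtain ⟨r, hr⟩ := hK.isBounded.subset_closedBall 0
  let χ : ContDiffBump (0 : Par) :=
    ⟨max r 1, max r 1 + 1, lt_of_lt_of_le one_pos (le_max_right _ _), lt_add_one _⟩
  refine ⟨fun p => χ p • N (back θ x₀ p), χ.contDiff.smul (hN.comp (contDiff_back hθ x₀)),
    χ.hasCompactSupport.smul_right, fun z hz x hx => ?_⟩
  have hmem : coord θ x₀ (z, x) ∈ closedBall (0 : Par) χ.rIn :=
    closedBall_subset_closedBall (le_max_left _ _)
      (hr (mem_image_of_mem _ ⟨ball_subset_closedBall hz, ball_subset_closedBall hx⟩))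
  show χ (coord θ x₀ (z, x)) • N (back θ x₀ (coord θ x₀ (z, x))) = N (z, x)
  rw [χ.one_of_mem_closedBall hmem, one_smul, back_coord hnull]

/-- The inhomogeneous transport system. -/
lemma exists_inhomogeneous (hθ : ContDiff ℝ ∞ θ) (hnull : ∀ z, IsNull (θ z))
    {N : ℂ × Space → AmpEnd} {f : ℂ × Space → Amp} (hN : ContDiff ℝ ∞ N) (hf : ContDiff ℝ ∞ f)
    (z₀ : ℂ) (R : ℝ) :
    ∃ ρ > 0, ∃ Y : ℂ × Space → Amp, ContDiff ℝ ∞ Y ∧ ∀ z ∈ ball z₀ ρ, ∀ x ∈ ball (0 : Space) R,
      Dth (θ z) (fun y => Y (z, y)) x = N (z, x) (Y (z, x)) + f (z, x) := by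
  obtain ⟨G, hG, hGc, hGe⟩ := exists_localised hθ hnull 0 hN z₀ R
  obtain ⟨g, hg, hgc, hge⟩ := exists_localised hθ hnull 0 hf z₀ R
  obtain ⟨Y, hY, hYe⟩ := exists_dbar (appR.contDiff.comp hG) (hGc.comp_left (map_zero appR)) hg hgc
  refine ⟨1, one_pos, fun q => Y (coord θ 0 q), hY.comp (contDiff_coord hθ hnull 0),
    fun z hz x hx => ?_⟩
  rw [Dth_comp_coord hnull 0 (hY.differentiable (by simp)) z x, hYe, Function.comp_apply,
    appR_apply, hGe z hz x hx, hge z hz x hx]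

/-- The homogeneous transport system with a prescribed value. -/
lemma exists_homogeneous (hθ : ContDiff ℝ ∞ θ) (hnull : ∀ z, IsNull (θ z))
    {N : ℂ × Space → AmpEnd} (hN : ContDiff ℝ ∞ N) (z₀ : ℂ) (R : ℝ) (x₀ : Space) (e : Amp) :
    ∃ ρ > 0, ∃ Y : ℂ × Space → Amp, ContDiff ℝ ∞ Y ∧ Y (z₀, x₀) = e ∧
      ∀ z ∈ ball z₀ ρ, ∀ x ∈ ball (0 : Space) R,
        Dth (θ z) (fun y => Y (z, y)) x = N (z, x) (Y (z, x)) := by
  obtain ⟨G, hG, hGc, hGe⟩ := exists_localised hθ hnull x₀ hN z₀ R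
  have hp₀ : (coord θ x₀ (z₀, x₀)).1 = 0 := by simp [coord]
  obtain ⟨𝒴, hY, hYe, hY0⟩ := exists_dbar_near (compR.contDiff.comp hG)
    (hGc.comp_left (map_zero compR)) (1 : AmpEnd) hp₀
  set A := 𝒴 (coord θ x₀ (z₀, x₀)) with hA
  have hunit : IsUnit A := by
    have h1 : ‖(1 : AmpEnd)‖ ≤ 1 := ContinuousLinearMap.norm_id_le
    have h2 : ‖1 - A‖ < 1 := by
      rw [norm_sub_rev]
      linarith
    have h3 := isUnit_one_sub_of_norm_lt_one h2
    rwa [sub_sub_cancel] at h3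
  obtain ⟨u, hu⟩ := hunit
  set v : Amp := (↑u⁻¹ : AmpEnd) e with hv
  refine ⟨1, one_pos, fun q => 𝒴 (coord θ x₀ q) v,
    ((ContinuousLinearMap.apply ℂ Amp v).restrictScalars ℝ).contDiff.comp
      (hY.comp (contDiff_coord hθ hnull x₀)), ?_, fun z hz x hx => ?_⟩
  · show A v = e
    rw [← hu, hv, ← ContinuousLinearMap.comp_apply, ← ContinuousLinearMap.mul_def, Units.mul_inv]
    rfl
  · have hYv : Differentiable ℝ fun p => 𝒴 p v :=
      (((ContinuousLinearMap.apply ℂ Amp v).restrictScalars ℝ).differentiable).comp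
        (hY.differentiable (by simp))
    rw [Dth_comp_coord (Y := fun p => 𝒴 p v) hnull x₀ hYv z x,
      dbar_eval (hY.differentiable (by simp)), hYe, Function.comp_apply, compR_apply,
      hGe z hz x hx]
    rfl

/-- Transport systems along a family of null vectors have smooth solutions. -/
theorem transport_stmt : TransportStmt := by
  intro θ hθ hnull N f hN hf z₀ R
  exact ⟨exists_inhomogeneous hθ hnull hN hf z₀ R,
    fun x₀ _ e => exists_homogeneous hθ hnull hN z₀ R x₀ e⟩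

end

end Vale.Agent.P136.Full.Transport
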