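import Mathlib

/-!
# P136, transport: smoothness of integrals with a parameter
-/

open MeasureTheory Filter Set
open scoped Topology ContDiff

namespace Vale.Agent.P136.Full.Transport

noncomputable section

set_option maxSynthPendingDepth 3

variable {P E : Type*} [NormedAddCommGroup P] [NormedSpace ℝ P]
  [NormedAddCommGroup E] [NormedSpace ℝ E] [NormedSpace ℂ E] [IsScalarTower ℝ ℂ E]

/-- The partial iterated derivative in the second variable. -/
def parD (Ψ : ℂ × P → E) (n : ℕ) (a : ℂ) (p : P) :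
    ContinuousMultilinearMap ℝ (fun _ : Fin n => P) E :=
  iteratedFDeriv ℝ n (fun q => Ψ (a, q)) p

omit [NormedSpace ℂ E] [IsScalarTower ℝ ℂ E] in
lemma contDiff_slice {Ψ : ℂ × P → E} (hΨ : ContDiff ℝ ∞ Ψ) (a : ℂ) :
    ContDiff ℝ ∞ fun q => Ψ (a, q) := hΨ.comp (contDiff_const.prodMk contDiff_id)

omit [NormedSpace ℂ E] [IsScalarTower ℝ ℂ E] in
lemma continuous_parD {Ψ : ℂ × P → E} (hΨ : ContDiff ℝ ∞ Ψ) (n : ℕ) (p : P) :
    Continuous fun a => parD Ψ n a p := by
  have h : ∀ a, parD Ψ n a p = ContinuousMultilinearMap.compContinuousLinearMapL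
      (F := E) (fun _ : Fin n => ContinuousLinearMap.inr ℝ ℂ P) (iteratedFDeriv ℝ n Ψ (a, p)) := by
    intro a
    have h1 : ContDiff ℝ ∞ fun y => Ψ ((a, 0) + y) := hΨ.comp (contDiff_const.add contDiff_id)
    have h2 : (fun q => Ψ (a, q)) = (fun y => Ψ ((a, 0) + y)) ∘ ContinuousLinearMap.inr ℝ ℂ P := by
      ext q; simp
    rw [parD, h2, ContinuousLinearMap.iteratedFDeriv_comp_right (n := ((⊤ : ℕ∞) : WithTop ℕ∞))
      (ContinuousLinearMap.inr ℝ ℂ P) h1 p (mod_cast le_top), iteratedFDeriv_comp_add_left]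
    simp
  simp_rw [h]
  exact (ContinuousLinearMap.continuous _).comp
    ((hΨ.continuous_iteratedFDeriv (mod_cast le_top)).comp (continuous_id.prodMk continuous_const))

/-- The integral `p ↦ ∫ k a • Ψ (a, p)`. -/
def par (k : ℂ → ℂ) (Ψ : ℂ × P → E) (p : P) : E := ∫ a, k a • Ψ (a, p)

variable {k : ℂ → ℂ} {Ψ : ℂ × P → E} {b : ℕ → ℂ → ℝ}

lemma integrable_parD (hk : Measurable k) (hΨ : ContDiff ℝ ∞ Ψ)
    (hb : ∀ n a p, ‖parD Ψ n a p‖ ≤ b n a) (hi : ∀ n, Integrable fun a => ‖k a‖ * b n a)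
    (n : ℕ) (p : P) : Integrable fun a => k a • parD Ψ n a p := by
  refine (hi n).mono' (hk.aestronglyMeasurable.smul (continuous_parD hΨ n p).aestronglyMeasurable)
    (Eventually.of_forall fun a => ?_)
  rw [norm_smul]
  exact mul_le_mul_of_nonneg_left (hb n a p) (norm_nonneg _)

lemma hasFDerivAt_parD (hk : Measurable k) (hΨ : ContDiff ℝ ∞ Ψ)
    (hb : ∀ n a p, ‖parD Ψ n a p‖ ≤ b n a) (hi : ∀ n, Integrable fun a => ‖k a‖ * b n a)
    (n : ℕ) (p : P) :
    HasFDerivAt (fun q => ∫ a, k a • parD Ψ n a q)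
      (∫ a, k a • fderiv ℝ (parD Ψ n a) p) p := by
  have hnorm : ∀ a q, ‖fderiv ℝ (parD Ψ n a) q‖ = ‖parD Ψ (n + 1) a q‖ := fun a q =>
    norm_fderiv_iteratedFDeriv
  have hcont : Continuous fun a => fderiv ℝ (parD Ψ n a) p := by
    have h : ∀ a, fderiv ℝ (parD Ψ n a) p =
        continuousMultilinearCurryLeftEquiv ℝ (fun _ : Fin (n + 1) => P) E
          (parD Ψ (n + 1) a p) := fun a => congrFun fderiv_iteratedFDeriv p
    simp_rw [h]
    exact (LinearIsometryEquiv.continuous _).comp (continuous_parD hΨ (n + 1) p)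
  refine hasFDerivAt_integral_of_dominated_of_fderiv_le (𝕜 := ℝ)
    (F := fun q a => k a • parD Ψ n a q) (F' := fun q a => k a • fderiv ℝ (parD Ψ n a) q)
    (bound := fun a => ‖k a‖ * b (n + 1) a) (s := univ) univ_mem
    (Eventually.of_forall fun q => (integrable_parD hk hΨ hb hi n q).aestronglyMeasurable)
    (integrable_parD hk hΨ hb hi n p)
    (hk.aestronglyMeasurable.smul hcont.aestronglyMeasurable) ?_ (hi (n + 1)) ?_
  · refine Eventually.of_forall fun a q _ => ?_
    refine (norm_smul_le (k a) (fderiv ℝ (parD Ψ n a) q)).trans ?_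
    rw [hnorm]
    exact mul_le_mul_of_nonneg_left (hb _ a q) (norm_nonneg _)
  · refine Eventually.of_forall fun a q _ => ?_
    have hd : Differentiable ℝ (parD Ψ n a) :=
      (contDiff_slice hΨ a).differentiable_iteratedFDeriv (mod_cast ENat.natCast_lt_top n)
    exact (hd q).hasFDerivAt.const_smul (k a)

variable [CompleteSpace E]

omit [CompleteSpace E] in
lemma iteratedFDeriv_par (hk : Measurable k) (hΨ : ContDiff ℝ ∞ Ψ)
    (hb : ∀ n a p, ‖parD Ψ n a p‖ ≤ b n a) (hi : ∀ n, Integrable fun a => ‖k a‖ * b n a)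
    (n : ℕ) : iteratedFDeriv ℝ n (par k Ψ) = fun p => ∫ a, k a • parD Ψ n a p := by
  induction n with
  | zero =>
    ext p m
    rw [iteratedFDeriv_zero_apply, ContinuousMultilinearMap.integral_apply
      (integrable_parD hk hΨ hb hi 0 p)]
    simp [par, parD]
  | succ n ih =>
    ext p m
    rw [iteratedFDeriv_succ_apply_left, ih, (hasFDerivAt_parD hk hΨ hb hi n p).fderiv,
      ContinuousMultilinearMap.integral_apply (integrable_parD hk hΨ hb hi (n + 1) p)]
    have hint : Integrable fun a => k a • fderiv ℝ (parD Ψ n a) p := by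
      have h : ∀ a, fderiv ℝ (parD Ψ n a) p =
          continuousMultilinearCurryLeftEquiv ℝ (fun _ : Fin (n + 1) => P) E
            (parD Ψ (n + 1) a p) := fun a => congrFun fderiv_iteratedFDeriv p
      refine (hi (n + 1)).mono' (hk.aestronglyMeasurable.smul ?_) (Eventually.of_forall fun a => ?_)
      · simp_rw [h]
        exact ((LinearIsometryEquiv.continuous _).comp
          (continuous_parD hΨ (n + 1) p)).aestronglyMeasurable
      · refine (norm_smul_le (k a) (fderiv ℝ (parD Ψ n a) p)).trans ?_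
        rw [show ‖fderiv ℝ (parD Ψ n a) p‖ = ‖parD Ψ (n + 1) a p‖ from norm_fderiv_iteratedFDeriv]
        exact mul_le_mul_of_nonneg_left (hb _ a p) (norm_nonneg _)
    have hint2 : Integrable fun a => (k a • fderiv ℝ (parD Ψ n a) p) (m 0) :=
      hint.apply_continuousLinearMap _
    rw [ContinuousLinearMap.integral_apply hint, ContinuousMultilinearMap.integral_apply hint2]
    rfl

/-- Smoothness of the integral and bounds on its derivatives. -/
theorem contDiff_par (hk : Measurable k) (hΨ : ContDiff ℝ ∞ Ψ)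
    (hb : ∀ n a p, ‖parD Ψ n a p‖ ≤ b n a) (hi : ∀ n, Integrable fun a => ‖k a‖ * b n a) :
    ContDiff ℝ ∞ (par k Ψ) ∧
      (∀ n p, ‖iteratedFDeriv ℝ n (par k Ψ) p‖ ≤ ∫ a, ‖k a‖ * b n a) ∧
      ∀ p v, fderiv ℝ (par k Ψ) p v = ∫ a, k a • fderiv ℝ (fun q => Ψ (a, q)) p v := by
  refine ⟨contDiff_of_differentiable_iteratedFDeriv fun m _ => ?_, fun n p => ?_, fun p v => ?_⟩
  · rw [iteratedFDeriv_par hk hΨ hb hi m]
    exact fun p => (hasFDerivAt_parD hk hΨ hb hi m p).differentiableAt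
  · rw [iteratedFDeriv_par hk hΨ hb hi n]
    refine norm_integral_le_of_norm_le (hi n) (Eventually.of_forall fun a => ?_)
    rw [norm_smul]
    exact mul_le_mul_of_nonneg_left (hb n a p) (norm_nonneg _)
  · have h := congrFun (iteratedFDeriv_par hk hΨ hb hi 1) p
    rw [← iteratedFDeriv_one_apply (f := par k Ψ) (fun _ : Fin 1 => v), h,
      ContinuousMultilinearMap.integral_apply (integrable_parD hk hΨ hb hi 1 p)]
    simp [parD]

end

end Vale.Agent.P136.Full.Transport
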