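import Vale.Agent.P136.Full.Transport.Cauchy
import Vale.Agent.P136.Full.Transport.Param

/-!
# P136, transport: right inverse of the weighted `∂₁ + i ∂₂`
-/

open MeasureTheory Filter Set
open scoped Topology ContDiff Real ComplexConjugate

namespace Vale.Agent.P136.Full.Transport

noncomputable section

set_option maxSynthPendingDepth 3

/-- Coordinates: a complex variable and parameters. -/
abbrev Par : Type := ℂ × (ℂ × ℝ)

variable {E : Type*} [NormedAddCommGroup E] [NormedSpace ℝ E] [NormedSpace ℂ E]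
  [IsScalarTower ℝ ℂ E]

/-- `∂₁ + i ∂₂` in the complex variable. -/
def dbar (f : Par → E) (p : Par) : E :=
  fderiv ℝ f p (1, 0) + Complex.I • fderiv ℝ f p (Complex.I, 0)

/-- The kernel. -/
def kern (s : ℝ) (u : ℂ) : ℂ :=
  (((2 * π)⁻¹ * Real.exp (-(s / 2) * ‖u‖ ^ 2) : ℝ) : ℂ) * u⁻¹

/-- The linear phase. -/
def phl (s : ℝ) (u : ℂ) : Par →L[ℝ] ℝ :=
  (s * u.im) • Complex.reCLM.comp (ContinuousLinearMap.fst ℝ ℂ (ℂ × ℝ)) -
    (s * u.re) • Complex.imCLM.comp (ContinuousLinearMap.fst ℝ ℂ (ℂ × ℝ))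

lemma phl_apply (s : ℝ) (u : ℂ) (p : Par) :
    phl s u p = s * u.im * p.1.re - s * u.re * p.1.im := by
  simp [phl, mul_assoc]

/-- The unimodular exponential. -/
def e1 (t : ℝ) : ℂ := Complex.exp ((t : ℂ) * Complex.I)

lemma hasDerivAt_e1 (t : ℝ) : HasDerivAt e1 (Complex.I * e1 t) t := hasDerivAt_circ t

lemma contDiff_e1 : ContDiff ℝ ∞ e1 := by
  unfold e1
  exact ((Complex.ofRealCLM.contDiff.mul contDiff_const)).cexp

lemma iteratedDeriv_e1 (i : ℕ) : iteratedDeriv i e1 = fun t => Complex.I ^ i * e1 t := by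
  induction i with
  | zero => simp
  | succ i ih =>
    ext t
    rw [iteratedDeriv_succ, ih, ((hasDerivAt_e1 t).const_mul _).deriv]
    ring

lemma norm_phl_le {s : ℝ} (hs : 0 ≤ s) (u : ℂ) : ‖phl s u‖ ≤ s * ‖u‖ := by
  refine ContinuousLinearMap.opNorm_le_bound _ (by positivity) fun p => ?_
  rw [phl_apply, Real.norm_eq_abs]
  have h : s * u.im * p.1.re - s * u.re * p.1.im = s * (conj p.1 * u).im := by
    simp [Complex.mul_im]; ring
  rw [h, abs_mul, abs_of_nonneg hs, mul_assoc]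
  refine mul_le_mul_of_nonneg_left ((Complex.abs_im_le_norm _).trans ?_) hs
  rw [norm_mul, Complex.norm_conj, mul_comm]
  exact mul_le_mul_of_nonneg_left (norm_fst_le p) (norm_nonneg _)

/-- The phase factor. -/
def phs (s : ℝ) (q : ℂ × Par) : ℂ := e1 (phl s q.1 q.2)

lemma contDiff_phs (s : ℝ) : ContDiff ℝ ∞ (phs s) := by
  refine contDiff_e1.comp ?_
  simp only [phl_apply]
  have h1 : ContDiff ℝ ∞ fun q : ℂ × Par => q.1.im := Complex.imCLM.contDiff.comp contDiff_fst
  have h2 : ContDiff ℝ ∞ fun q : ℂ × Par => q.1.re := Complex.reCLM.contDiff.comp contDiff_fst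
  have h3 : ContDiff ℝ ∞ fun q : ℂ × Par => q.2.1.re :=
    Complex.reCLM.contDiff.comp (contDiff_fst.comp contDiff_snd)
  have h4 : ContDiff ℝ ∞ fun q : ℂ × Par => q.2.1.im :=
    Complex.imCLM.contDiff.comp (contDiff_fst.comp contDiff_snd)
  exact ((contDiff_const.mul h1).mul h3).sub ((contDiff_const.mul h2).mul h4)

/-- The integrand. -/
def psi (s : ℝ) (F : Par → E) (q : ℂ × Par) : E := phs s q • F (q.2 - (q.1, 0))

lemma contDiff_psi (s : ℝ) {F : Par → E} (hF : ContDiff ℝ ∞ F) : ContDiff ℝ ∞ (psi s F) :=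
  (contDiff_phs s).smul (hF.comp (contDiff_snd.sub (contDiff_fst.prodMk contDiff_const)))

/-- The operator. -/
def T (s : ℝ) (F : Par → E) : Par → E := par (kern s) (psi s F)

/-- The moments of the kernel. -/
def Kc (s : ℝ) (i : ℕ) : ℝ := ∫ u, ‖kern s u‖ * (s * ‖u‖) ^ i

lemma measurable_kern (s : ℝ) : Measurable (kern s) := by
  unfold kern
  fun_prop

lemma kern_moment_le {s : ℝ} (hs : 0 ≤ s) (i : ℕ) (u : ℂ) :
    ‖kern s u‖ * (s * ‖u‖) ^ i ≤
      (2 * π)⁻¹ * s ^ i * (‖u‖ ^ ((i : ℝ) - 1) * Real.exp (-(s / 2) * ‖u‖ ^ (2 : ℝ))) := by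
  have h0 : (0 : ℝ) ≤ (2 * π)⁻¹ := by positivity
  by_cases hu : u = 0
  · subst hu
    simp only [kern, inv_zero, norm_zero, mul_zero, zero_mul]
    positivity
  · have hu' : 0 < ‖u‖ := norm_pos_iff.2 hu
    rw [kern, norm_mul, Complex.norm_real, norm_inv, Real.norm_eq_abs,
      abs_of_nonneg (by positivity), mul_pow, Real.rpow_sub hu', Real.rpow_one,
      Real.rpow_natCast, Real.rpow_two]
    exact le_of_eq (by ring)

lemma integrable_moment_bound {s : ℝ} (hs : 0 < s) (i : ℕ) :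
    Integrable fun u : ℂ => ‖u‖ ^ ((i : ℝ) - 1) * Real.exp (-(s / 2) * ‖u‖ ^ (2 : ℝ)) := by
  refine Integrable.of_integral_ne_zero ?_
  have hi : (0 : ℝ) ≤ i := Nat.cast_nonneg i
  rw [Complex.integral_rpow_mul_exp_neg_mul_rpow (p := 2) (q := (i : ℝ) - 1) (by norm_num)
    (by linarith) (by positivity)]
  refine ne_of_gt (mul_pos (mul_pos (by positivity) (Real.rpow_pos_of_pos (by positivity) _)) ?_)
  exact Real.Gamma_pos_of_pos (by linarith)

lemma integrable_kern_moment {s : ℝ} (hs : 0 < s) (i : ℕ) :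
    Integrable fun u => ‖kern s u‖ * (s * ‖u‖) ^ i := by
  refine ((integrable_moment_bound hs i).const_mul ((2 * π)⁻¹ * s ^ i)).mono'
    ((measurable_kern s).norm.mul (by fun_prop)).aestronglyMeasurable
    (Eventually.of_forall fun u => ?_)
  rw [Real.norm_eq_abs, abs_of_nonneg (by positivity)]
  exact kern_moment_le hs.le i u

lemma Kc_nonneg {s : ℝ} (hs : 0 ≤ s) (i : ℕ) : 0 ≤ Kc s i :=
  integral_nonneg fun u => by positivity

/-- The zeroth moment can be made small. -/
lemma exists_Kc_small (a : ℝ) {ε : ℝ} (hε : 0 < ε) : ∃ s > 0, Kc s 0 * a ≤ ε := by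
  set c : ℝ := (2 * π)⁻¹ * (2 * π / 2) * Real.Gamma ((((0 : ℕ) : ℝ) - 1 + 2) / 2) with hc
  have hΓ : 0 < Real.Gamma ((((0 : ℕ) : ℝ) - 1 + 2) / 2) :=
    Real.Gamma_pos_of_pos (by norm_num)
  have hc0 : 0 ≤ c := by positivity
  set S : ℝ := max 1 (c * |a| / ε) with hS
  have hS0 : 0 < S := lt_of_lt_of_le one_pos (le_max_left _ _)
  refine ⟨2 * S ^ 2, by positivity, ?_⟩
  have hle : Kc (2 * S ^ 2) 0 ≤ c * S⁻¹ := by
    refine (integral_mono (integrable_kern_moment (by positivity) 0)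
      ((integrable_moment_bound (by positivity) 0).const_mul _)
      fun u => kern_moment_le (by positivity) 0 u).trans (le_of_eq ?_)
    rw [integral_const_mul, Complex.integral_rpow_mul_exp_neg_mul_rpow (p := 2)
      (q := ((0 : ℕ) : ℝ) - 1) (by norm_num) (by norm_num) (by positivity), pow_zero]
    have h : (2 * S ^ 2 / 2) ^ (-(((0 : ℕ) : ℝ) - 1 + 2) / 2) = S⁻¹ := by
      rw [show 2 * S ^ 2 / 2 = S ^ (2 : ℝ) by rw [Real.rpow_two]; ring, ← Real.rpow_mul hS0.le,
        ← Real.rpow_neg_one]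
      norm_num
    rw [h, hc]; ring
  calc Kc (2 * S ^ 2) 0 * a ≤ Kc (2 * S ^ 2) 0 * |a| :=
        mul_le_mul_of_nonneg_left (le_abs_self a) (Kc_nonneg (by positivity) 0)
    _ ≤ c * S⁻¹ * |a| := mul_le_mul_of_nonneg_right hle (abs_nonneg a)
    _ ≤ ε := by
      have h := le_max_right (1 : ℝ) (c * |a| / ε)
      rw [← hS, div_le_iff₀ hε] at h
      rw [mul_right_comm, ← div_eq_mul_inv, div_le_iff₀ hS0]
      linarith

lemma norm_parD_psi_le {s : ℝ} (hs : 0 ≤ s) {F : Par → E} (hF : ContDiff ℝ ∞ F) {A : ℕ → ℝ}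
    (hA : ∀ l p, ‖iteratedFDeriv ℝ l F p‖ ≤ A l) (n : ℕ) (u : ℂ) (p : Par) :
    ‖parD (psi s F) n u p‖ ≤
      ∑ i ∈ Finset.range (n + 1), (n.choose i : ℝ) * (s * ‖u‖) ^ i * A (n - i) := by
  have h1 : ContDiff ℝ ∞ fun q => e1 (phl s u q) := contDiff_e1.comp (phl s u).contDiff
  have h2 : ContDiff ℝ ∞ fun q : Par => F (q - (u, 0)) :=
    hF.comp (contDiff_id.sub contDiff_const)
  refine (norm_iteratedFDeriv_smul_le h1 h2 p (n := n) (mod_cast le_top)).trans ?_
  refine Finset.sum_le_sum fun i _ => ?_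
  have h3 : ‖iteratedFDeriv ℝ i (fun q => e1 (phl s u q)) p‖ ≤ (s * ‖u‖) ^ i := by
    have h := (phl s u).iteratedFDeriv_comp_right (n := ((⊤ : ℕ∞) : WithTop ℕ∞)) contDiff_e1 p
      (i := i) (mod_cast le_top)
    rw [show (fun q => e1 (phl s u q)) = e1 ∘ phl s u from rfl, h]
    refine (ContinuousMultilinearMap.norm_compContinuousLinearMap_le _ _).trans ?_
    rw [norm_iteratedFDeriv_eq_norm_iteratedDeriv, iteratedDeriv_e1, Finset.prod_const,
      Finset.card_fin, norm_mul, norm_pow, Complex.norm_I, one_pow, one_mul,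
      show ‖e1 (phl s u p)‖ = 1 from norm_circ _, one_mul]
    exact pow_le_pow_left₀ (norm_nonneg _) (norm_phl_le hs u) i
  have h4 : ‖iteratedFDeriv ℝ (n - i) (fun q : Par => F (q - (u, 0))) p‖ ≤ A (n - i) := by
    rw [iteratedFDeriv_comp_sub]
    exact hA _ _
  have hA0 : 0 ≤ A (n - i) := (norm_nonneg _).trans h4
  gcongr

variable [CompleteSpace E] {s : ℝ} {F : Par → E}

omit [NormedSpace ℂ E] [IsScalarTower ℝ ℂ E] [CompleteSpace E] in
lemma exists_bound (hF : ContDiff ℝ ∞ F) (hc : HasCompactSupport F) (l : ℕ) :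
    ∃ C, ∀ p, ‖iteratedFDeriv ℝ l F p‖ ≤ C :=
  (hF.continuous_iteratedFDeriv (mod_cast le_top)).bounded_above_of_compact_support
    (hc.iteratedFDeriv l)

lemma integrable_T_bound (hs : 0 < s) (A : ℕ → ℝ) (n : ℕ) :
    Integrable fun u => ‖kern s u‖ *
      ∑ i ∈ Finset.range (n + 1), (n.choose i : ℝ) * (s * ‖u‖) ^ i * A (n - i) := by
  simp_rw [Finset.mul_sum]
  refine integrable_finsetSum _ fun i _ => ?_
  exact ((integrable_kern_moment hs i).mul_const ((n.choose i : ℝ) * A (n - i))).congr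
    (Eventually.of_forall fun u => by ring)

lemma contDiff_T_aux (hs : 0 < s) (hF : ContDiff ℝ ∞ F) {A : ℕ → ℝ}
    (hA : ∀ l p, ‖iteratedFDeriv ℝ l F p‖ ≤ A l) :
    ContDiff ℝ ∞ (T s F) ∧ ∀ n p, ‖iteratedFDeriv ℝ n (T s F) p‖ ≤
      ∑ i ∈ Finset.range (n + 1), (n.choose i : ℝ) * Kc s i * A (n - i) := by
  obtain ⟨h1, h2, -⟩ := contDiff_par (measurable_kern s) (contDiff_psi s hF)
    (norm_parD_psi_le hs.le hF hA) (integrable_T_bound hs A)
  refine ⟨h1, fun n p => (h2 n p).trans (le_of_eq ?_)⟩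
  simp_rw [Finset.mul_sum]
  rw [integral_finsetSum _ fun i _ => ((integrable_kern_moment hs i).mul_const
    ((n.choose i : ℝ) * A (n - i))).congr (Eventually.of_forall fun u => by ring)]
  refine Finset.sum_congr rfl fun i _ => ?_
  rw [Kc, ← integral_const_mul, ← integral_mul_const]
  exact integral_congr_ae (Eventually.of_forall fun u => by ring)

lemma contDiff_T (hs : 0 < s) (hF : ContDiff ℝ ∞ F) (hc : HasCompactSupport F) :
    ContDiff ℝ ∞ (T s F) := by
  choose A hA using exists_bound hF hc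
  exact (contDiff_T_aux hs hF hA).1

lemma norm_iteratedFDeriv_T_le (hs : 0 < s) (hF : ContDiff ℝ ∞ F) (hc : HasCompactSupport F)
    {n : ℕ} {A : ℕ → ℝ} (hA : ∀ l ≤ n, ∀ p, ‖iteratedFDeriv ℝ l F p‖ ≤ A l) (p : Par) :
    ‖iteratedFDeriv ℝ n (T s F) p‖ ≤
      ∑ i ∈ Finset.range (n + 1), (n.choose i : ℝ) * Kc s i * A (n - i) := by
  choose B hB using exists_bound hF hc
  have hA' : ∀ l q, ‖iteratedFDeriv ℝ l F q‖ ≤ (if l ≤ n then A l else B l) := by
    intro l q
    split_ifs with h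
    · exact hA l h q
    · exact hB l q
  refine ((contDiff_T_aux hs hF hA').2 n p).trans (le_of_eq (Finset.sum_congr rfl fun i _ => ?_))
  rw [if_pos (Nat.sub_le n i)]

omit [CompleteSpace E] in
lemma fderiv_psi_apply (hFd : Differentiable ℝ F) (s : ℝ) (p : Par) (u : ℂ) (v : Par) :
    fderiv ℝ (fun q => psi s F (u, q)) p v =
      e1 (phl s u p) • (fderiv ℝ F (p - (u, 0)) v +
        ((phl s u v : ℂ) * Complex.I) • F (p - (u, 0))) := by
  have h1 : HasFDerivAt (fun q => e1 (phl s u q))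
      ((phl s u).smulRight (Complex.I * e1 (phl s u p))) p := by
    have h := (hasDerivAt_e1 (phl s u p)).hasFDerivAt.comp p (phl s u).hasFDerivAt
    refine h.congr_fderiv (ContinuousLinearMap.ext fun w => ?_)
    simp
  have h2 : HasFDerivAt (fun q : Par => F (q - (u, 0))) (fderiv ℝ F (p - (u, 0))) p :=
    (hasFDerivAt_comp_sub _).2 (hFd _).hasFDerivAt
  have h3 : HasFDerivAt (fun q => psi s F (u, q)) _ p := h1.smul h2
  rw [h3.fderiv]
  simp only [add_apply, FunLike.coe_smul, Pi.smul_apply,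
    ContinuousLinearMap.smulRight_apply, Complex.real_smul]
  module

/-- The gauged integrand as a function of the integration variable. -/
def hfun (s : ℝ) (F : Par → E) (p : Par) (u : ℂ) : E :=
  Complex.exp ((phl s u p : ℂ) * Complex.I -
    (s / 2 : ℂ) * ((u.re : ℂ) ^ 2 + (u.im : ℂ) ^ 2)) • F (p - (u, 0))

omit [CompleteSpace E] in
lemma contDiff_hfun (hF : ContDiff ℝ ∞ F) (s : ℝ) (p : Par) : ContDiff ℝ 1 (hfun s F p) := by
  have hre : ContDiff ℝ 1 fun u : ℂ => (u.re : ℂ) :=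
    Complex.ofRealCLM.contDiff.comp Complex.reCLM.contDiff
  have him : ContDiff ℝ 1 fun u : ℂ => (u.im : ℂ) :=
    Complex.ofRealCLM.contDiff.comp Complex.imCLM.contDiff
  refine ContDiff.smul ?_ ((hF.of_le (mod_cast le_top)).comp
    (contDiff_const.sub (contDiff_id.prodMk contDiff_const)))
  refine (ContDiff.sub ?_ (contDiff_const.mul ((hre.pow 2).add (him.pow 2)))).cexp
  refine (Complex.ofRealCLM.contDiff.comp (?_ : ContDiff ℝ 1 fun w => phl s w p)).mul contDiff_const
  simp only [phl_apply]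
  exact ((contDiff_const.mul Complex.imCLM.contDiff).mul contDiff_const).sub
    ((contDiff_const.mul Complex.reCLM.contDiff).mul contDiff_const)

omit [CompleteSpace E] in
lemma fderiv_hfun_apply (hFd : Differentiable ℝ F) (s : ℝ) (p : Par) (u v : ℂ) :
    fderiv ℝ (hfun s F p) u v =
      Complex.exp ((phl s u p : ℂ) * Complex.I - (s / 2 : ℂ) * ((u.re : ℂ) ^ 2 + (u.im : ℂ) ^ 2)) •
        (-(fderiv ℝ F (p - (u, 0)) (v, 0)) + (((s * v.im * p.1.re - s * v.re * p.1.im : ℝ) : ℂ) *
          Complex.I - (s : ℂ) * (u.re * v.re + u.im * v.im)) • F (p - (u, 0))) := by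
  have hre : HasFDerivAt (fun w : ℂ => (w.re : ℂ)) (Complex.ofRealCLM.comp Complex.reCLM) u :=
    (Complex.ofRealCLM.comp Complex.reCLM).hasFDerivAt
  have him : HasFDerivAt (fun w : ℂ => (w.im : ℂ)) (Complex.ofRealCLM.comp Complex.imCLM) u :=
    (Complex.ofRealCLM.comp Complex.imCLM).hasFDerivAt
  have hl : HasFDerivAt (fun w : ℂ => (phl s w p : ℂ))
      (Complex.ofRealCLM.comp ((s * p.1.re) • Complex.imCLM - (s * p.1.im) • Complex.reCLM)) u := by
    refine (Complex.ofRealCLM.comp ((s * p.1.re) • Complex.imCLM -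
      (s * p.1.im) • Complex.reCLM)).hasFDerivAt.congr_of_eventuallyEq
        (Eventually.of_forall fun w => ?_)
    simp [phl_apply]
    ring
  have hφ := ((hl.mul_const Complex.I).sub
    (((hre.pow 2).add (him.pow 2)).const_mul (s / 2 : ℂ))).cexp
  have hm : HasFDerivAt (fun w : ℂ => F (p - (w, 0)))
      ((fderiv ℝ F (p - (u, 0))).comp (-(ContinuousLinearMap.inl ℝ ℂ (ℂ × ℝ)))) u := by
    have h := ((ContinuousLinearMap.inl ℝ ℂ (ℂ × ℝ)).hasFDerivAt (x := u)).const_sub p
    exact (hFd _).hasFDerivAt.comp u h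
  have h3 : HasFDerivAt (hfun s F p) _ u := hφ.smul hm
  rw [h3.fderiv]
  simp only [add_apply, FunLike.coe_smul, Pi.smul_apply,
    ContinuousLinearMap.smulRight_apply, ContinuousLinearMap.comp_apply,
    neg_apply, ContinuousLinearMap.inl_apply, map_neg, smul_eq_mul,
    sub_apply, Complex.ofRealCLM_apply, Complex.reCLM_apply,
    Complex.imCLM_apply, Pi.sub_apply, Pi.add_apply]
  push_cast
  match_scalars <;> ring

omit [CompleteSpace E] [IsScalarTower ℝ ℂ E] in
lemma pointwise_identity (hFd : Differentiable ℝ F) (s : ℝ) (p : Par) (u : ℂ) :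
    kern s u • (fderiv ℝ (fun q => psi s F (u, q)) p (1, 0) +
      Complex.I • fderiv ℝ (fun q => psi s F (u, q)) p (Complex.I, 0) +
        ((s : ℂ) * p.1) • psi s F (u, p)) =
      (-(2 * (π : ℂ))⁻¹) • (u⁻¹ • (fderiv ℝ (hfun s F p) u 1 +
        Complex.I • fderiv ℝ (hfun s F p) u Complex.I)) := by
  have hexp : Complex.exp ((phl s u p : ℂ) * Complex.I -
      (s / 2 : ℂ) * ((u.re : ℂ) ^ 2 + (u.im : ℂ) ^ 2)) =
      ((Real.exp (-(s / 2) * ‖u‖ ^ 2) : ℝ) : ℂ) * e1 (phl s u p) := by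
    rw [e1, Complex.ofReal_exp, ← Complex.exp_add, Complex.sq_norm, Complex.normSq_apply]
    congr 1
    push_cast
    ring
  simp only [fderiv_psi_apply hFd, fderiv_hfun_apply hFd]
  rw [hexp]
  simp only [psi, phs, phl_apply, kern, Complex.one_re, Complex.one_im, Complex.I_re, Complex.I_im]
  conv_lhs => rw [show ((s : ℂ) * p.1) = (s : ℂ) * (p.1.re + p.1.im * Complex.I) by
    rw [Complex.re_add_im]]
  push_cast
  match_scalars
  all_goals
    ring_nf
    try simp only [Complex.I_sq]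
    try ring

omit [NormedSpace ℝ E] [IsScalarTower ℝ ℂ E] [CompleteSpace E] in
lemma integrable_kern_smul (hs : 0 < s) {R : ℝ} {G : ℂ → E} (hG : Continuous G)
    (h0 : ∀ u, R < ‖u‖ → G u = 0) : Integrable fun u => kern s u • G u := by
  have hGc : HasCompactSupport G := HasCompactSupport.intro (isCompact_closedBall 0 R)
    fun u hu => h0 u (by simpa using hu)
  obtain ⟨C, hC⟩ := hG.bounded_above_of_compact_support hGc
  have hk : Integrable fun u => ‖kern s u‖ := by simpa using integrable_kern_moment hs 0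
  refine (hk.mul_const C).mono'
    ((measurable_kern s).aestronglyMeasurable.smul hG.aestronglyMeasurable)
    (Eventually.of_forall fun u => ?_)
  rw [norm_smul]
  exact mul_le_mul_of_nonneg_left (hC u) (norm_nonneg _)

/-- `T` is a right inverse of the weighted operator. -/
theorem dbar_T (hs : 0 < s) (hF : ContDiff ℝ ∞ F) (hc : HasCompactSupport F) (p : Par) :
    dbar (T s F) p + ((s : ℂ) * p.1) • T s F p = F p := by
  choose A hA using exists_bound hF hc
  obtain ⟨-, -, hder⟩ := contDiff_par (measurable_kern s) (contDiff_psi s hF)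
    (norm_parD_psi_le hs.le hF hA) (integrable_T_bound hs A)
  have hFd : Differentiable ℝ F := hF.differentiable (by simp)
  have hF'c : Continuous (fderiv ℝ F) := hF.continuous_fderiv (by simp)
  obtain ⟨R, hR⟩ := hc.isCompact.isBounded.subset_closedBall 0
  have hout : ∀ u : ℂ, ‖p‖ + R < ‖u‖ → F (p - (u, 0)) = 0 ∧ fderiv ℝ F (p - (u, 0)) = 0 := by
    intro u hu
    have hn : p - (u, 0) ∉ tsupport F := by
      intro hm
      have h1 := hR hm
      rw [mem_closedBall_zero_iff] at h1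
      have h2 := norm_sub_norm_le ((u, 0) : Par) p
      rw [norm_sub_rev] at h1
      rw [Prod.norm_mk, norm_zero, max_eq_left (norm_nonneg u)] at h2
      linarith
    exact ⟨image_eq_zero_of_notMem_tsupport hn, fderiv_of_notMem_tsupport ℝ hn⟩
  have hcφ' : Continuous fun u : ℂ => phs s (u, p) :=
    Continuous.comp (g := phs s) (f := fun u : ℂ => (u, p)) (contDiff_phs s).continuous
      (continuous_id.prodMk continuous_const)
  have hcφ : Continuous fun u => e1 (phl s u p) := by simpa only [phs] using hcφ'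
  have hcF : Continuous fun u : ℂ => F (p - (u, 0)) :=
    hF.continuous.comp (continuous_const.sub (continuous_id.prodMk continuous_const))
  have hi1 : ∀ v, Integrable fun u => kern s u • fderiv ℝ (fun q => psi s F (u, q)) p v := by
    intro v
    refine integrable_kern_smul (E := E) hs (R := ‖p‖ + R)
      (G := fun u => fderiv ℝ (fun q => psi s F (u, q)) p v) ?_ ?_
    · have hpc : Continuous fun u : ℂ => (p - (u, 0) : Par) :=
        continuous_const.sub (continuous_id.prodMk continuous_const)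
      have hd : Continuous fun u : ℂ => fderiv ℝ F (p - (u, 0)) := hF'c.comp hpc
      have hdv : Continuous fun u : ℂ => fderiv ℝ F (p - (u, 0)) v :=
        hd.clm_apply continuous_const
      have hL : Continuous fun u : ℂ => (phl s u v : ℂ) * Complex.I := by
        simp only [phl_apply]
        fun_prop
      have hall : Continuous fun u : ℂ => e1 (phl s u p) • (fderiv ℝ F (p - (u, 0)) v +
          ((phl s u v : ℂ) * Complex.I) • F (p - (u, 0))) := hcφ.smul (hdv.add (hL.smul hcF))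
      exact hall.congr fun u => (fderiv_psi_apply hFd s p u v).symm
    · intro u hu
      simp [fderiv_psi_apply hFd, hout u hu]
  have hi0 : Integrable fun u => kern s u • psi s F (u, p) :=
    integrable_kern_smul hs (R := ‖p‖ + R) (hcφ.smul hcF) fun u hu => by simp [psi, hout u hu]
  have hHc : HasCompactSupport (hfun s F p) :=
    HasCompactSupport.intro (isCompact_closedBall 0 (‖p‖ + R))
      fun u hu => by simp [hfun, (hout u (by simpa using hu)).1]
  have hsplit : dbar (T s F) p + ((s : ℂ) * p.1) • T s F p =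
      ∫ u, kern s u • (fderiv ℝ (fun q => psi s F (u, q)) p (1, 0) +
        Complex.I • fderiv ℝ (fun q => psi s F (u, q)) p (Complex.I, 0) +
          ((s : ℂ) * p.1) • psi s F (u, p)) := by
    rw [dbar, T, hder, hder, ← integral_smul, show par (kern s) (psi s F) p =
      ∫ u, kern s u • psi s F (u, p) from rfl, ← integral_smul,
      ← integral_add (hi1 (1, 0)) ((hi1 (Complex.I, 0)).fun_smul Complex.I),
      ← integral_add ((hi1 (1, 0)).fun_add ((hi1 (Complex.I, 0)).fun_smul Complex.I))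
        (hi0.fun_smul ((s : ℂ) * p.1))]
    congr 1
    ext u
    module
  rw [hsplit]
  simp_rw [pointwise_identity hFd]
  rw [integral_smul, cauchy_pompeiu (contDiff_hfun hF s p) hHc]
  have hπ : (π : ℂ) ≠ 0 := Complex.ofReal_ne_zero.2 Real.pi_ne_zero
  rw [smul_smul, neg_mul_neg, inv_mul_cancel₀ (mul_ne_zero two_ne_zero hπ), one_smul, hfun]
  simp [phl_apply, Prod.mk_zero_zero]

end

end Vale.Agent.P136.Full.Transport
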